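import Mathlib

/-!
# The slice lemma: transcendence degree of a dehomogenisation

`R` a graded `k`-algebra, `P` a homogeneous prime, `e ∈ R_{M0}`, `e' ∈ R_{M0+1}` not in `P`, `P'` a prime
which contains `e - e'` and which contains a homogeneous element if and only if `P` does. Then
`trdeg (R / P') + 1 = trdeg (R / P)`.
-/

namespace Vale.Agent.P271.H70

open Polynomial DirectSum

section Hom

variable {k R B : Type*} [Field k] [CommRing R] [Algebra k R] (A : ℕ → Submodule k R)
  [GradedAlgebra A] [CommRing B] [Algebra k B]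

/-- `s ↦ f s * T ^ M` on `R_M` -/
noncomputable def sliceAux (f : R →ₐ[k] B) (M : ℕ) : A M →ₗ[k] B[X] :=
  ((Polynomial.monomial M).restrictScalars k) ∘ₗ f.toLinearMap ∘ₗ (A M).subtype

omit [GradedAlgebra A] in
lemma sliceAux_apply (f : R →ₐ[k] B) (M : ℕ) (s : A M) :
    sliceAux A f M s = Polynomial.monomial M (f s) := rfl

lemma sliceAux_one (f : R →ₐ[k] B) :
    sliceAux A f 0 (GradedMonoid.GOne.one (A := fun i => A i)) = 1 := by
  rw [sliceAux_apply]
  change Polynomial.monomial 0 (f 1) = 1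
  rw [map_one]; rfl

lemma sliceAux_mul (f : R →ₐ[k] B) {i j : ℕ} (ai : A i) (aj : A j) :
    sliceAux A f (i + j) (GradedMonoid.GMul.mul (A := fun i => A i) ai aj) = sliceAux A f i ai * sliceAux A f j aj := by
  rw [sliceAux_apply, sliceAux_apply, sliceAux_apply, Polynomial.monomial_mul_monomial,
    ← map_mul]
  rfl

/-- the homomorphism on the direct sum -/
noncomputable def slice0 (f : R →ₐ[k] B) : (⨁ M, A M) →ₐ[k] B[X] :=
  DirectSum.toAlgebra k (fun M => A M) (sliceAux A f) (sliceAux_one A f)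
    (fun ai aj => sliceAux_mul A f ai aj)

lemma slice0_of (f : R →ₐ[k] B) (M : ℕ) (s : A M) :
    slice0 A f (DirectSum.of (fun i => A i) M s) = Polynomial.monomial M (f s) :=
  DirectSum.toSemiring_of (fun i => (sliceAux A f i).toAddMonoidHom) (sliceAux_one A f)
    (fun ai aj => sliceAux_mul A f ai aj) M s

/-- `s ↦ ∑ f (s_M) * T ^ M` -/
noncomputable def slice (f : R →ₐ[k] B) : R →ₐ[k] B[X] :=
  (slice0 A f).comp (decomposeAlgEquiv A).toAlgHom

lemma slice_of_mem (f : R →ₐ[k] B) {M : ℕ} {s : R} (hs : s ∈ A M) :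
    slice A f s = Polynomial.monomial M (f s) := by
  have h : decompose A s = DirectSum.of (fun i => A i) M ⟨s, hs⟩ := decompose_of_mem A hs
  change slice0 A f (decompose A s) = _
  rw [h, slice0_of]

lemma coeff_slice (f : R →ₐ[k] B) (s : R) (M : ℕ) :
    (slice A f s).coeff M = f (decompose A s M : R) := by
  induction s using DirectSum.Decomposition.inductionOn A with
  | zero => simp
  | homogeneous m =>
    rename_i i
    rw [slice_of_mem A f m.2, Polynomial.coeff_monomial]
    split_ifs with h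
    · subst h
      rw [decompose_of_mem_same A m.2]
    · rw [decompose_of_mem_ne A m.2 h, map_zero]
  | add x y hx hy =>
    rw [map_add, Polynomial.coeff_add, hx, hy, decompose_add, DirectSum.add_apply,
      Submodule.coe_add, map_add]

end Hom

section Trdeg

variable {k R : Type*} [Field k] [CommRing R] [Algebra k R] (A : ℕ → Submodule k R)
  [GradedAlgebra A]

/-- **the slice lemma** -/
theorem trdeg_slice (P P' : Ideal R) [P.IsPrime] [P'.IsPrime]
    (hP : P.IsHomogeneous A) {M0 : ℕ} {e e' : R} (he : e ∈ A M0) (he' : e' ∈ A (M0 + 1))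
    (heP : e ∉ P) (he'P : e' ∉ P) (hee : e - e' ∈ P')
    (hPP : ∀ M, ∀ s ∈ A M, s ∈ P' ↔ s ∈ P) :
    Algebra.trdeg k (R ⧸ P') + 1 = Algebra.trdeg k (R ⧸ P) := by
  classical
  set f : R →ₐ[k] (R ⧸ P') := Ideal.Quotient.mkₐ k P' with hf
  set φ : R →ₐ[k] (R ⧸ P')[X] := slice A f with hφ
  have hf0 : ∀ s, f s = 0 ↔ s ∈ P' := fun s => Ideal.Quotient.eq_zero_iff_mem
  have hker : ∀ s, φ s = 0 ↔ s ∈ P := by
    intro s
    constructor
    · intro h
      rw [← DirectSum.sum_support_decompose A s]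
      refine P.sum_mem fun M _ => ?_
      have h1 : f (decompose A s M : R) = 0 := by
        rw [← coeff_slice A f s M, ← hφ, h, Polynomial.coeff_zero]
      exact (hPP M _ (SetLike.coe_mem _)).1 ((hf0 _).1 h1)
    · intro h
      ext M
      rw [hφ, coeff_slice, Polynomial.coeff_zero, hf0]
      exact (hPP M _ (SetLike.coe_mem _)).2 (hP M h)
  set ψ : (R ⧸ P) →ₐ[k] (R ⧸ P')[X] := Ideal.Quotient.liftₐ P φ (fun a ha => (hker a).2 ha)
    with hψ
  have hψmk : ∀ s, ψ (Ideal.Quotient.mk P s) = φ s := fun s => rfl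
  have hinj : Function.Injective ψ := by
    rw [injective_iff_map_eq_zero]
    intro x
    obtain ⟨s, rfl⟩ := Ideal.Quotient.mk_surjective x
    intro h
    rw [hψmk, hker] at h
    exact Ideal.Quotient.eq_zero_iff_mem.2 h
  let _ : Algebra (R ⧸ P) (R ⧸ P')[X] := ψ.toRingHom.toAlgebra
  have halg : ∀ x, algebraMap (R ⧸ P) (R ⧸ P')[X] x = ψ x := fun x => rfl
  have : IsScalarTower k (R ⧸ P) (R ⧸ P')[X] := IsScalarTower.of_algebraMap_eq (fun c => by
    rw [halg]; exact (ψ.commutes c).symm)
  have : FaithfulSMul (R ⧸ P) (R ⧸ P')[X] :=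
    (faithfulSMul_iff_algebraMap_injective _ _).2 hinj
  -- the elements `e, e'`
  have hmk : f e = f e' := by
    rw [← sub_eq_zero, ← map_sub]
    exact (hf0 _).2 hee
  have hφe : φ e' = X * φ e := by
    rw [hφ, slice_of_mem A f he, slice_of_mem A f he', hmk, ← Polynomial.monomial_one_one_eq_X,
      Polynomial.monomial_mul_monomial, one_mul, add_comm]
  have he0 : φ e ≠ 0 := fun h => heP ((hker e).1 h)
  have hXM : ∀ M, φ (e' ^ M) = X ^ M * φ (e ^ M) := by
    intro M
    rw [map_pow, hφe, mul_pow, map_pow]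
  have halgφ : ∀ s, IsAlgebraic (R ⧸ P) (φ s) := fun s => by
    have := isAlgebraic_algebraMap (R := R ⧸ P) (A := (R ⧸ P')[X]) (Ideal.Quotient.mk P s)
    rwa [halg, hψmk] at this
  -- cancellation
  have hcancel : ∀ (a b : R) (y : (R ⧸ P')[X]), φ a ≠ 0 → φ a * y = φ b →
      IsAlgebraic (R ⧸ P) y := by
    intro a b y ha hab
    refine IsAlgebraic.of_mul (y := φ a) (mem_nonZeroDivisors_of_ne_zero ha) (halgφ a) ?_
    rw [hab]
    exact halgφ b
  have hX : IsAlgebraic (R ⧸ P) (X : (R ⧸ P')[X]) := by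
    refine hcancel e e' X he0 ?_
    rw [hφe, mul_comm]
  have hC1 : ∀ M, ∀ s ∈ A M, IsAlgebraic (R ⧸ P) (C (f s) : (R ⧸ P')[X]) := by
    intro M s hs
    refine hcancel (e' ^ M) (s * e ^ M) _ ?_ ?_
    · rw [Ne, hker]
      exact fun h => he'P (Ideal.IsPrime.mem_of_pow_mem inferInstance _ h)
    · rw [hXM, map_mul, hφ, slice_of_mem A f hs, ← Polynomial.C_mul_X_pow_eq_monomial]
      ring
  have hC : ∀ s, IsAlgebraic (R ⧸ P) (C (f s) : (R ⧸ P')[X]) := by
    intro s
    induction s using DirectSum.Decomposition.inductionOn A with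
    | zero => rw [map_zero, map_zero]; exact isAlgebraic_zero
    | homogeneous m => exact hC1 _ _ m.2
    | add x y hx hy => rw [map_add, map_add]; exact hx.add hy
  have : Algebra.IsAlgebraic (R ⧸ P) (R ⧸ P')[X] := by
    constructor
    intro p
    induction p using Polynomial.induction_on' with
    | add p q hp hq => exact hp.add hq
    | monomial n a =>
      obtain ⟨s, rfl⟩ := Ideal.Quotient.mk_surjective a
      rw [← Polynomial.C_mul_X_pow_eq_monomial]
      exact (hC s).mul (hX.pow n)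
  have h1 := _root_.trdeg_add_eq k (R ⧸ P) (A := (R ⧸ P')[X])
  have h2 := _root_.trdeg_add_eq k (R ⧸ P') (A := (R ⧸ P')[X])
  rw [trdeg_eq_zero (R := R ⧸ P) (A := (R ⧸ P')[X]), add_zero] at h1
  rw [Polynomial.trdeg_of_isDomain] at h2
  rw [h1]
  exact h2

/-- **Noether normalisation of the slice** -/
theorem exists_noether_slice [Algebra.FiniteType k R] (P P' : Ideal R) [P.IsPrime] [P'.IsPrime]
    (hP : P.IsHomogeneous A) {M0 : ℕ} {e e' : R} (he : e ∈ A M0) (he' : e' ∈ A (M0 + 1))
    (heP : e ∉ P) (he'P : e' ∉ P) (hee : e - e' ∈ P')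
    (hPP : ∀ M, ∀ s ∈ A M, s ∈ P' ↔ s ∈ P) {d : ℕ}
    (hd : Algebra.trdeg k (R ⧸ P) = ((d + 1 : ℕ) : Cardinal)) :
    ∃ t : Fin d → R, AlgebraicIndependent k (fun j => Ideal.Quotient.mk P' (t j)) ∧
      ∀ x : R ⧸ P', IsIntegral
        (Algebra.adjoin k (Set.range fun j => Ideal.Quotient.mk P' (t j))) x := by
  classical
  have h1 := trdeg_slice A P P' hP he he' heP he'P hee hPP
  rw [hd] at h1
  obtain ⟨s, g, hg, hint⟩ := exists_integral_inj_algHom_of_fg k (R ⧸ P')
  have hind : AlgebraicIndependent k (fun j => g (MvPolynomial.X j)) := by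
    have : (MvPolynomial.aeval fun j => g (MvPolynomial.X j) : MvPolynomial (Fin s) k →ₐ[k] _) = g := by
      ext j
      simp
    rw [AlgebraicIndependent, this]
    exact hg
  have hrange : Algebra.adjoin k (Set.range fun j => g (MvPolynomial.X j)) = g.range := by
    have : (MvPolynomial.aeval fun j => g (MvPolynomial.X j) : MvPolynomial (Fin s) k →ₐ[k] _) = g := by
      ext j
      simp
    rw [Algebra.adjoin_range_eq_range_aeval, this]
  have hint' : ∀ x : R ⧸ P', IsIntegral
      (Algebra.adjoin k (Set.range fun j => g (MvPolynomial.X j))) x := by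
    intro x
    rw [hrange]
    obtain ⟨p, hp, hpx⟩ := hint x
    refine ⟨p.map g.rangeRestrict.toRingHom, hp.map _, ?_⟩
    rw [Polynomial.eval₂_map]
    exact hpx
  have halg : Algebra.IsAlgebraic (Algebra.adjoin k (Set.range fun j => g (MvPolynomial.X j)))
      (R ⧸ P') := ⟨fun x => (hint' x).isAlgebraic⟩
  have htb := (hind.isTranscendenceBasis_iff_isAlgebraic).2 halg
  have hcard := htb.lift_cardinalMk_eq_trdeg
  have hsd : s = d := by
    rw [Cardinal.mk_fin, Cardinal.lift_natCast, ] at hcard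
    have h2 : Algebra.trdeg k (R ⧸ P') = (s : Cardinal) := by
      have := hcard.symm
      rwa [Cardinal.lift_id', ] at this
    rw [h2] at h1
    have h3 : ((s + 1 : ℕ) : Cardinal) = ((d + 1 : ℕ) : Cardinal) := by
      rw [← h1]; push_cast; rfl
    have h4 := Nat.cast_injective (R := Cardinal) h3
    omega
  subst hsd
  choose t ht using fun j => Ideal.Quotient.mk_surjective (I := P') (g (MvPolynomial.X j))
  refine ⟨t, ?_, ?_⟩
  · have : (fun j => Ideal.Quotient.mk P' (t j)) = fun j => g (MvPolynomial.X j) := funext ht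
    rw [this]; exact hind
  · have : (fun j => Ideal.Quotient.mk P' (t j)) = fun j => g (MvPolynomial.X j) := funext ht
    rw [this]; exact hint'

end Trdeg

end Vale.Agent.P271.H70
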