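import Vale.Agent.P271.Ver.Main
import Vale.Agent.P271.Hilb.Int

/-!
# The exponent of the Hilbert function of `R / P` is `trdeg (R / P) - 1`
-/

namespace Vale.Agent.P271.H70

open Filter Topology Vale.Agent.P271.Drop Vale.Agent.P271.Deg Vale.Agent.P271.Ver

/-- transcendence degree from a Noether normalisation -/
theorem trdeg_of_noether {k S : Type*} [Field k] [CommRing S] [IsDomain S] [Algebra k S] {n : ℕ}
    (y : Fin n → S) (hind : AlgebraicIndependent k y)
    (hint : ∀ x : S, IsIntegral (Algebra.adjoin k (Set.range y)) x) :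
    Algebra.trdeg k S = (n : Cardinal) := by
  have halg : Algebra.IsAlgebraic (Algebra.adjoin k (Set.range y)) S :=
    ⟨fun x => (hint x).isAlgebraic⟩
  have htb := (hind.isTranscendenceBasis_iff_isAlgebraic).2 halg
  have hcard := htb.lift_cardinalMk_eq_trdeg
  rw [Cardinal.mk_fin, Cardinal.lift_natCast] at hcard
  have := hcard.symm
  rwa [Cardinal.lift_id'] at this

variable {k R : Type*} [Field k] [CharZero k] [CommRing R] [Algebra k R] (A : ℕ → Submodule k R)
  [GradedAlgebra A]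

/-- for a good Veronese index -/
theorem trdeg_of_verOK {m : ℕ} (h : VerOK A m) {P : Ideal R} [hPp : P.IsPrime]
    (hP : P.IsHomogeneous A) (hrel : ¬ (A m : Set R) ⊆ P) {d D : ℕ} (hD : 1 ≤ D)
    (hTS : TwoSided d D (fun t => hilb A P (m * t))) :
    Algebra.trdeg k (R ⧸ P) = ((d + 1 : ℕ) : Cardinal) := by
  obtain ⟨d', y, D', -, hind, hint, hD', hTS'⟩ := Ver.prime_data h hPp hP hrel
  obtain ⟨rfl, -⟩ := hTS.unique hTS' hD hD'
  exact trdeg_of_noether _ hind hint

omit [CharZero k] in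
lemma not_subset_of_verOK {m : ℕ} (h : VerOK A m) {P : Ideal R} [hPp : P.IsPrime]
    (hrel : ∃ j > 0, ∃ s ∈ A j, s ∉ P) : ¬ (A m : Set R) ⊆ P := by
  obtain ⟨j, hj, s, hs, hsP⟩ := hrel
  intro hsub
  apply hsP
  obtain ⟨i, rfl⟩ : ∃ i, j = i + 1 := ⟨j - 1, by omega⟩
  have h1 : s ^ m ∈ A (m * (i + 1)) := by
    have := SetLike.pow_mem_graded m hs
    rwa [smul_eq_mul] at this
  have h2 := h.pow i h1
  have h3 : A m ^ (i + 1) ≤ (P.restrictScalars k : Submodule k R) := by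
    rw [pow_succ]
    refine Submodule.mul_le.2 fun a _ b hb => ?_
    exact P.mul_mem_left a (hsub hb)
  exact hPp.mem_of_pow_mem m (h3 h2)

/-- **`trdeg (R / P) = d + 1`** if the Hilbert function of `R / P` at the multiples of any `m1 ≥ 1`
has exponent `d`. -/
theorem trdeg_of_twoSided [IsDomain R] [Algebra.FiniteType k R]
    (h0 : ∀ a ∈ A 0, ∃ c : k, algebraMap k R c = a) {P : Ideal R} [hPp : P.IsPrime]
    (hP : P.IsHomogeneous A) (hrel : ∃ j > 0, ∃ s ∈ A j, s ∉ P) {m1 d D : ℕ} (hm1 : 1 ≤ m1)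
    (hD : 1 ≤ D) (hTS : TwoSided d D (fun t => hilb A P (m1 * t))) :
    Algebra.trdeg k (R ⧸ P) = ((d + 1 : ℕ) : Cardinal) := by
  obtain ⟨j, hj, s, hs, hsP⟩ := hrel
  have hne : A j ≠ ⊥ := by
    intro hbot
    rw [hbot, Submodule.mem_bot] at hs
    exact hsP (by rw [hs]; exact P.zero_mem)
  obtain ⟨m₀, hm₀, hver⟩ := exists_verOK A (fun r hr => (h0 r hr).imp fun c hc => hc.symm) hj hne
  have h := hver (m1 * m₀) (dvd_mul_left _ _) (Nat.mul_pos hm1 hm₀)
  have hrel' := not_subset_of_verOK A h (P := P) ⟨j, hj, s, hs, hsP⟩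
  obtain ⟨d', y, D', -, hind, hint, hD', hTS'⟩ := Ver.prime_data h hPp hP hrel'
  have h1 := hTS.tendsto
  have h2 := Hilb.growth_comp (N := fun t => hilb A P (m1 * t)) hm₀ h1
  have h3 := hTS'.tendsto
  have h4 : (fun t : ℕ => (hilb A P (m1 * (m₀ * t)) : ℝ)) =
      fun t : ℕ => (hilb A P (m1 * m₀ * t) : ℝ) := by
    funext t; rw [mul_assoc]
  have hD0 : (0 : ℝ) < D := by exact_mod_cast hD
  have hD0' : (0 : ℝ) < D' := by exact_mod_cast hD'
  have hm0 : (0 : ℝ) < m₀ := by exact_mod_cast hm₀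
  have h5 : Tendsto (fun t : ℕ => (hilb A P (m1 * m₀ * t) : ℝ) / (t : ℝ) ^ d) atTop
      (𝓝 ((D : ℝ) * (m₀ : ℝ) ^ d / d.factorial)) := by
    refine h2.congr fun t => ?_
    simp only [mul_assoc]
  obtain ⟨rfl, -⟩ := Hilb.growth_unique (f := fun t => (hilb A P (m1 * m₀ * t) : ℝ))
    (by positivity) (by positivity) h5 h3
  exact trdeg_of_noether _ hind hint

end Vale.Agent.P271.H70
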