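import Vale.Agent.P271.H70.NN

/-! Density of nonvanishing sets in irreducible affine varieties over `ℂ` (Euclidean topology). -/

open Filter Metric Set Topology

namespace Vale.Agent.P271.NN

variable {N : ℕ} {P : Ideal (MvPolynomial (Fin N) ℂ)}

theorem isClosed_VV (I : Ideal (MvPolynomial (Fin N) ℂ)) : IsClosed (VV I) := by
  have : VV I = ⋂ f ∈ I, {z | MvPolynomial.eval z f = 0} := by
    ext z
    simp [VV]
  rw [this]
  exact isClosed_biInter fun f _ => isClosed_eq (MvPolynomial.continuous_eval f) continuous_const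

/-- In an irreducible affine variety the nonvanishing set of a polynomial which is not identically
zero on it is dense in the Euclidean topology. -/
theorem mem_closure_ne (hP : P.IsPrime) {y0 : Fin N → ℂ} (hy0 : y0 ∈ VV P)
    {f : MvPolynomial (Fin N) ℂ} (hf : f ∉ P) :
    y0 ∈ closure {y | y ∈ VV P ∧ MvPolynomial.eval y f ≠ 0} := by
  obtain ⟨d⟩ := exists_nData P hP
  rw [Metric.mem_closure_iff]
  intro ε hε
  obtain ⟨z, hz, hd, hzf, _⟩ := d.dense hy0 hf hε
  exact ⟨z, ⟨hz, hzf⟩, by rw [dist_comm]; exact hd⟩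

theorem closure_ne (hP : P.IsPrime) {f : MvPolynomial (Fin N) ℂ} (hf : f ∉ P) :
    closure {y | y ∈ VV P ∧ MvPolynomial.eval y f ≠ 0} = VV P :=
  Subset.antisymm ((closure_mono fun _ h => h.1).trans (isClosed_VV P).closure_subset)
    fun _ h => mem_closure_ne hP h hf

/-- Sequence version. -/
theorem exists_seq_ne (hP : P.IsPrime) {y0 : Fin N → ℂ} (hy0 : y0 ∈ VV P)
    {f : MvPolynomial (Fin N) ℂ} (hf : f ∉ P) :
    ∃ y : ℕ → Fin N → ℂ, (∀ j, y j ∈ VV P ∧ MvPolynomial.eval (y j) f ≠ 0) ∧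
      Tendsto y atTop (𝓝 y0) :=
  mem_closure_iff_seq_limit.1 (mem_closure_ne hP hy0 hf)

/-- Points of `VV P` outside `VV Q` accumulate at every point of `VV P`, if `Q` is not contained
in `P` (for instance if `P < Q`). -/
theorem exists_seq_notMem (hP : P.IsPrime) {Q : Ideal (MvPolynomial (Fin N) ℂ)} (hQ : ¬ Q ≤ P)
    {y0 : Fin N → ℂ} (hy0 : y0 ∈ VV P) :
    ∃ y : ℕ → Fin N → ℂ, (∀ j, y j ∈ VV P ∧ y j ∉ VV Q) ∧ Tendsto y atTop (𝓝 y0) := by
  obtain ⟨f, hfQ, hfP⟩ := Set.not_subset.1 hQ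
  obtain ⟨y, hy, hyt⟩ := exists_seq_ne hP hy0 hfP
  exact ⟨y, fun j => ⟨(hy j).1, fun h => (hy j).2 (h f hfQ)⟩, hyt⟩

/-- Near every point of an irreducible affine variety there are manifold points `z` at which a
given polynomial (not identically zero on the variety) does not vanish, together with a local
holomorphic parametrisation `σ` inverse to a polynomial projection. -/
theorem exists_chart_near (hP : P.IsPrime) {y0 : Fin N → ℂ} (hy0 : y0 ∈ VV P)
    {f : MvPolynomial (Fin N) ℂ} (hf : f ∉ P) {ε : ℝ} (hε : 0 < ε) :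
    ∃ (n : ℕ) (t : Fin n → MvPolynomial (Fin N) ℂ) (z : Fin N → ℂ), z ∈ VV P ∧ dist z y0 < ε ∧
      MvPolynomial.eval z f ≠ 0 ∧
      ∃ r > 0, ∃ (W : Set (Fin N → ℂ)) (σ : (Fin n → ℂ) → (Fin N → ℂ)), IsOpen W ∧ z ∈ W ∧
        DifferentiableOn ℂ σ (ball (prt t z) r) ∧ σ (prt t z) = z ∧
        (∀ b ∈ ball (prt t z) r, σ b ∈ VV P ∩ W ∧ prt t (σ b) = b) ∧
        ∀ z' ∈ VV P ∩ W, prt t z' ∈ ball (prt t z) r ∧ σ (prt t z') = z' := by
  obtain ⟨d⟩ := exists_nData P hP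
  obtain ⟨z, hz, hd, hzf, hΔ⟩ := d.dense hy0 hf hε
  exact ⟨d.n, d.t, z, hz, hd, hzf, d.exists_section hz hΔ⟩

end Vale.Agent.P271.NN
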