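import Vale.Agent.P271.Sch.Hub

/-!
# P271 / H70 / GenCover : uniform bounds over the points of the cone, monomials, division by a
homogeneous element
-/

namespace Vale.Agent.P271.H70

open Vale.Agent.P271.Sch

/-- (a) A bound which is valid on a Zariski neighbourhood of each point is uniform. -/
theorem exists_uniform {n : ℕ} (C : GCone n) (P : ℕ → C.Pt → Prop)
    (h : ∀ φ, GCone.NV φ → ∃ s : C.R, φ s ≠ 0 ∧ ∃ M0, ∀ M ≥ M0, ∀ χ : C.Pt, GCone.NV χ →
      χ s ≠ 0 → P M χ) :
    ∃ M0, ∀ M ≥ M0, ∀ χ : C.Pt, GCone.NV χ → P M χ := by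
  classical
  have hnoeth : IsNoetherianRing C.R := by
    have := C.finiteType
    exact Algebra.FiniteType.isNoetherianRing ℂ C.R
  by_cases hne : Nonempty C.Pt
  swap
  · exact ⟨0, fun _ _ φ => absurd ⟨φ⟩ hne⟩
  choose! d hd M hM using h
  obtain ⟨s, hs, hspan⟩ := (Submodule.fg_span_iff_fg_span_finset_subset
    (R := C.R) (d '' {φ : C.Pt | GCone.NV φ})).1 (IsNoetherian.noetherian _)
  have hch : ∀ x ∈ s, ∃ φ : C.Pt, GCone.NV φ ∧ d φ = x := by
    intro x hx
    obtain ⟨φ, hφ, h⟩ := hs hx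
    exact ⟨φ, hφ, h⟩
  choose! ψ hψ hψd using hch
  refine ⟨s.sup fun x => M (ψ x), fun M' hM' φ hφ => ?_⟩
  obtain ⟨x, hx, hxφ⟩ : ∃ x ∈ s, φ x ≠ 0 := by
    by_contra hcon
    push Not at hcon
    have h1 : Ideal.span (s : Set C.R) ≤ RingHom.ker φ := by
      rw [Ideal.span_le]
      exact fun x hx => hcon x hx
    have h2 : d φ ∈ Ideal.span (s : Set C.R) := by
      have h3 : d φ ∈ Submodule.span C.R (d '' {φ : C.Pt | GCone.NV φ}) :=
        Submodule.subset_span ⟨φ, hφ, rfl⟩
      rw [hspan] at h3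
      exact h3
    exact hd φ hφ (h1 h2)
  refine hM (ψ x) (hψ x hx) M' (le_trans ?_ hM') φ hφ (by rw [hψd x hx]; exact hxφ)
  exact Finset.le_sup (f := fun x => M (ψ x)) hx

/-- Every `M ≥ k * k` is `a * k + b * (k + 1)`. -/
theorem exists_rep (k M : ℕ) (h : k * k ≤ M) : ∃ a b : ℕ, a * k + b * (k + 1) = M := by
  rcases Nat.eq_zero_or_pos k with rfl | hk
  · exact ⟨0, M, by ring⟩
  · have h1 : M % k < k := Nat.mod_lt _ hk
    have h2 : k * (M / k) + M % k = M := Nat.div_add_mod M k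
    have h3 : k ≤ M / k := (Nat.le_div_iff_mul_le hk).2 h
    have h4 : M % k ≤ M / k := by omega
    refine ⟨M / k - M % k, M % k, ?_⟩
    obtain ⟨c, hc⟩ := Nat.exists_eq_add_of_le h4
    rw [hc]
    have : M % k + c - M % k = c := by omega
    rw [this]
    rw [hc] at h2
    nlinarith

/-- (b) Homogeneous elements of every large degree which do not vanish where `s` and `s'` do not. -/
theorem exists_mon {n : ℕ} {C : GCone n} {k : ℕ} {s s' : C.R} (hs : s ∈ C.A k)
    (hs' : s' ∈ C.A (k + 1)) :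
    ∃ M0, ∀ M ≥ M0, ∃ y ∈ C.A M, ∀ χ : C.Pt, χ s ≠ 0 → χ s' ≠ 0 → χ y ≠ 0 := by
  refine ⟨k * k, fun M hM => ?_⟩
  obtain ⟨a, b, hab⟩ := exists_rep k M hM
  refine ⟨s ^ a * s' ^ b, ?_, fun χ h1 h2 => ?_⟩
  · have h1 := SetLike.pow_mem_graded (A := C.A) a hs
    have h2 := SetLike.pow_mem_graded (A := C.A) b hs'
    have := SetLike.mul_mem_graded h1 h2
    simp only [smul_eq_mul, hab] at this
    exact this
  · rw [map_mul, map_pow, map_pow]
    exact mul_ne_zero (pow_ne_zero _ h1) (pow_ne_zero _ h2)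

/-- (c) Division by a nonzero homogeneous element. -/
theorem mem_of_mul {n : ℕ} {C : GCone n} {b g : C.R} {j p : ℕ} (hb : b ∈ C.A j) (hb0 : b ≠ 0)
    (hg : g ≠ 0) (h : b * g ∈ C.A p) : j ≤ p ∧ g ∈ C.A (p - j) := by
  classical
  have key : ∀ i, j + i ≠ p → (DirectSum.decompose C.A g i : C.R) = 0 := by
    intro i hi
    have h1 : (DirectSum.decompose C.A (b * g) (j + i) : C.R) =
        b * (DirectSum.decompose C.A g i : C.R) :=
      DirectSum.coe_decompose_mul_add_of_left_mem C.A hb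
    have h2 : (DirectSum.decompose C.A (b * g) (j + i) : C.R) = 0 :=
      DirectSum.decompose_of_mem_ne C.A h (fun e => hi e.symm)
    rw [h2] at h1
    rcases mul_eq_zero.1 h1.symm with h3 | h3
    · exact absurd h3 hb0
    · exact h3
  have hsum := DirectSum.sum_support_decompose C.A g
  have hex : ∃ i, (DirectSum.decompose C.A g i : C.R) ≠ 0 := by
    by_contra hcon
    push Not at hcon
    apply hg
    rw [← hsum]
    exact Finset.sum_eq_zero fun i _ => hcon i
  obtain ⟨i, hi⟩ := hex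
  have hij : j + i = p := by
    by_contra hne
    exact hi (key i hne)
  refine ⟨by omega, ?_⟩
  have hi' : p - j = i := by omega
  rw [hi', ← hsum]
  refine Submodule.sum_mem _ fun l _ => ?_
  by_cases hl : l = i
  · subst hl
    exact (DirectSum.decompose C.A g l).2
  · rw [key l (by omega)]
    exact Submodule.zero_mem _

end Vale.Agent.P271.H70
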