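import Mathlib

/-! Noether normalisation data of irreducible affine varieties over the complex numbers,
local sections and density of nonvanishing sets (adapted from the P274 library, Mathlib only). -/

set_option linter.all false

section

set_option linter.unusedSectionVars false

open Filter Metric Set Topology Polynomial

namespace Vale.Agent.P271.NN

variable {X : Type*} [NormedAddCommGroup X] [NormedSpace ℂ X]

/-- A separable family of polynomials over the set `Ω`. -/
structure SepFam (Ω : Set X) (d : ℕ) (g : X → ℂ[X]) : Prop where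
  an : ∀ j, AnalyticOnNhd ℂ (fun w => (g w).coeff j) Ω
  deg : ∀ w ∈ Ω, (g w).natDegree ≤ d
  lc : ∀ w ∈ Ω, (g w).coeff d ≠ 0
  sep : ∀ w ∈ Ω, ∀ x, (g w).eval x = 0 → (derivative (g w)).eval x ≠ 0

variable {Ω : Set X} {d : ℕ} {g : X → ℂ[X]}

theorem SepFam.eval_eq (h : SepFam Ω d g) {w : X} (hw : w ∈ Ω) (x : ℂ) :
    (g w).eval x = ∑ j ∈ Finset.range (d + 1), (g w).coeff j * x ^ j :=
  Polynomial.eval_eq_sum_range' (Nat.lt_succ_of_le (h.deg w hw)) x

theorem SepFam.analyticAt (h : SepFam Ω d g) (hΩ : IsOpen Ω) {w : X} (hw : w ∈ Ω) (x : ℂ) :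
    AnalyticAt ℂ (fun p : X × ℂ => (g p.1).eval p.2) (w, x) := by
  have h1 : AnalyticAt ℂ (fun p : X × ℂ => ∑ j ∈ Finset.range (d + 1), (g p.1).coeff j * p.2 ^ j)
      (w, x) := by
    refine Finset.analyticAt_fun_sum _ fun j _ => ?_
    refine AnalyticAt.mul ?_ (analyticAt_snd.pow j)
    exact AnalyticAt.fun_comp (g := fun w => (g w).coeff j) (f := fun p : X × ℂ => p.1)
      (h.an j w hw) analyticAt_fst
  refine h1.congr ?_
  have h2 : ∀ᶠ p : X × ℂ in 𝓝 (w, x), p.1 ∈ Ω :=
    (continuous_fst.tendsto (w, x)).eventually (hΩ.mem_nhds hw)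
  filter_upwards [h2] with p hp
  exact (h.eval_eq hp p.2).symm

/-- The local biholomorphism. -/
theorem SepFam.localEquiv [CompleteSpace X] (h : SepFam Ω d g) (hΩ : IsOpen Ω) {w : X}
    (hw : w ∈ Ω) {x : ℂ} (hx : (g w).eval x = 0) :
    ∃ φ : OpenPartialHomeomorph (X × ℂ) (X × ℂ), (w, x) ∈ φ.source ∧
      (∀ p, φ p = (p.1, (g p.1).eval p.2)) ∧ AnalyticAt ℂ φ.symm (w, 0) := by
  set Φ : X × ℂ → X × ℂ := fun p => (p.1, (g p.1).eval p.2) with hΦ
  have han := h.analyticAt hΩ hw x
  have hΦan : AnalyticAt ℂ Φ (w, x) := analyticAt_fst.prod han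
  set A : X × ℂ →L[ℂ] ℂ := fderiv ℂ (fun p : X × ℂ => (g p.1).eval p.2) (w, x) with hA
  set a : ℂ := (derivative (g w)).eval x with ha
  have ha0 : a ≠ 0 := h.sep w hw x hx
  have hAa : ∀ t : ℂ, A (0, t) = a * t := by
    intro t
    have h1 : HasFDerivAt (fun p : X × ℂ => (g p.1).eval p.2) A (w, x) :=
      han.differentiableAt.hasFDerivAt
    have h2 : HasFDerivAt (fun s : ℂ => ((w, s) : X × ℂ))
        ((0 : ℂ →L[ℂ] X).prod (ContinuousLinearMap.id ℂ ℂ)) x :=
      (hasFDerivAt_const w x).prodMk (hasFDerivAt_id x)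
    have h3 : HasFDerivAt (fun s : ℂ => (g w).eval s) (A.comp _) x :=
      HasFDerivAt.comp (g := fun p : X × ℂ => (g p.1).eval p.2) (f := fun s : ℂ => ((w, s) : X × ℂ))
        x h1 h2
    have h4 : HasFDerivAt (fun s : ℂ => (g w).eval s) _ x :=
      ((g w).hasDerivAt x).hasFDerivAt
    have h5 := congrArg (fun L : ℂ →L[ℂ] ℂ => L t) (h3.unique h4)
    simp only [ContinuousLinearMap.comp_apply, ContinuousLinearMap.prod_apply,
      _root_.zero_apply, ContinuousLinearMap.id_apply] at h5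
    rw [h5]
    simp [ha, mul_comm]
  set L : (X × ℂ) →L[ℂ] (X × ℂ) := (ContinuousLinearMap.fst ℂ X ℂ).prod A with hL
  set M : (X × ℂ) →L[ℂ] (X × ℂ) := (ContinuousLinearMap.fst ℂ X ℂ).prod
    (a⁻¹ • (ContinuousLinearMap.snd ℂ X ℂ - A.comp ((ContinuousLinearMap.inl ℂ X ℂ).comp
      (ContinuousLinearMap.fst ℂ X ℂ)))) with hM
  have hsplit : ∀ p : X × ℂ, A p = A (p.1, 0) + a * p.2 := by
    intro p
    rw [← hAa, ← map_add]
    simp
  set e : (X × ℂ) ≃L[ℂ] (X × ℂ) := ContinuousLinearEquiv.equivOfInverse L M (fun p => by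
    simp only [hL, hM, ContinuousLinearMap.prod_apply, ContinuousLinearMap.coe_fst',
      _root_.smul_apply, _root_.sub_apply,
      ContinuousLinearMap.coe_snd', ContinuousLinearMap.comp_apply,
      ContinuousLinearMap.inl_apply, smul_eq_mul]
    rw [hsplit p]
    ext
    · rfl
    · change a⁻¹ * (A (p.1, 0) + a * p.2 - A (p.1, 0)) = p.2
      rw [add_sub_cancel_left, inv_mul_cancel_left₀ ha0]) (fun p => by
    simp only [hL, hM, ContinuousLinearMap.prod_apply, ContinuousLinearMap.coe_fst',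
      _root_.smul_apply, _root_.sub_apply,
      ContinuousLinearMap.coe_snd', ContinuousLinearMap.comp_apply,
      ContinuousLinearMap.inl_apply, smul_eq_mul]
    ext
    · rfl
    · change A (p.1, a⁻¹ * (p.2 - A (p.1, 0))) = p.2
      rw [hsplit]
      change A (p.1, 0) + a * (a⁻¹ * (p.2 - A (p.1, 0))) = p.2
      rw [mul_inv_cancel_left₀ ha0]
      ring) with he
  have hd : HasFDerivAt Φ (e : (X × ℂ) →L[ℂ] (X × ℂ)) (w, x) := by
    have h1 : HasFDerivAt Φ L (w, x) :=
      (ContinuousLinearMap.fst ℂ X ℂ).hasFDerivAt.prodMk han.differentiableAt.hasFDerivAt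
    exact h1
  have hcd : ContDiffAt ℂ ⊤ Φ (w, x) := hΦan.contDiffAt
  have hne : (⊤ : WithTop ℕ∞) ≠ 0 := by simp
  have h6 := hcd.to_localInverse hd hne
  have h7 : Φ (w, x) = (w, 0) := by simp only [hΦ, hx]
  rw [h7] at h6
  exact ⟨hcd.toOpenPartialHomeomorph Φ hd hne, hcd.mem_toOpenPartialHomeomorph_source hd hne,
    fun p => by rw [hcd.toOpenPartialHomeomorph_coe], h6.analyticAt⟩

end Vale.Agent.P271.NN
end

section

/-! Noether normalization data of an irreducible affine variety (TASK Z1). -/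

open Polynomial

namespace Vale.Agent.P271.NN

section alg

variable {A R : Type*} [CommRing A] [IsDomain A] [CommRing R] [IsDomain R] [Algebra A R]

theorem coeff_zero_ne {s : R} (hi : IsIntegral A s) (hs : s ≠ 0) :
    (minpoly A s).coeff 0 ≠ 0 := by
  intro h0
  have h := (minpoly A s).divX_mul_X_add
  rw [h0, C_0, add_zero] at h
  have hm : ((minpoly A s).divX * X).Monic := by rw [h]; exact minpoly.monic hi
  have hm2 : (minpoly A s).divX.Monic := Monic.of_mul_monic_left monic_X (by rw [mul_comm]; exact hm)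
  have hne : aeval s (minpoly A s).divX ≠ 0 := by
    refine minpoly.aeval_ne_zero_of_dvdNotUnit_minpoly hi hm2 ?_
    exact ⟨hm2.ne_zero, X, not_isUnit_X, h.symm⟩
  have h2 := congrArg (aeval s) h
  rw [minpoly.aeval, map_mul, aeval_X] at h2
  exact (mul_ne_zero hne hs) h2

theorem exists_mul_eq_algebraMap [Algebra.IsIntegral A R]
    (s : R) (hs : s ≠ 0) : ∃ s' : R, ∃ a : A, a ≠ 0 ∧ s * s' = algebraMap A R a := by
  have hi : IsIntegral A s := Algebra.IsIntegral.isIntegral s
  refine ⟨- aeval s (minpoly A s).divX, (minpoly A s).coeff 0, coeff_zero_ne hi hs, ?_⟩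
  have h := congrArg (aeval s) (minpoly A s).divX_mul_X_add
  rw [minpoly.aeval, map_add, map_mul, aeval_X, aeval_C] at h
  linear_combination -h

variable (K L : Type*) [Field K] [Field L] [Algebra A K] [IsFractionRing A K] [Algebra R L]
  [IsFractionRing R L] [Algebra K L] [Algebra A L] [IsScalarTower A K L] [IsScalarTower A R L]

include R in
theorem exists_denom [Algebra.IsIntegral A R] (x : L) :
    ∃ (r : R) (a : A), a ≠ 0 ∧ algebraMap A L a * x = algebraMap R L r := by
  obtain ⟨r, s, hs, rfl⟩ := IsFractionRing.div_surjective (A := R) x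
  have hs0 : s ≠ 0 := nonZeroDivisors.ne_zero hs
  obtain ⟨s', a, ha, h⟩ := exists_mul_eq_algebraMap (A := A) s hs0
  refine ⟨r * s', a, ha, ?_⟩
  have hsL : algebraMap R L s ≠ 0 := by
    intro h0
    exact hs0 ((IsFractionRing.injective R L) (by rw [h0, map_zero]))
  rw [IsScalarTower.algebraMap_apply A R L, ← h, map_mul, map_mul]
  field_simp

include R in
theorem finKL [Module.Finite A R] : FiniteDimensional K L := by
  have : Algebra.IsIntegral A R := inferInstance
  obtain ⟨T, hT⟩ := Module.Finite.fg_top (R := A) (M := R)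
  classical
  refine ⟨⟨T.image (algebraMap R L), ?_⟩⟩
  rw [eq_top_iff]
  intro x _
  obtain ⟨r, a, ha, hx⟩ := exists_denom (A := A) (R := R) L x
  have hr : r ∈ Submodule.span A (T : Set R) := by rw [hT]; trivial
  have key : ∀ r ∈ Submodule.span A (T : Set R),
      algebraMap R L r ∈ Submodule.span K ((T.image (algebraMap R L) : Finset L) : Set L) := by
    intro r hr
    induction hr using Submodule.span_induction with
    | mem x hx => exact Submodule.subset_span (by
        simp only [Finset.coe_image]; exact ⟨x, hx, rfl⟩)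
    | zero => simp
    | add x y _ _ hx hy => rw [map_add]; exact Submodule.add_mem _ hx hy
    | smul a x _ hx =>
      rw [Algebra.smul_def, map_mul, ← IsScalarTower.algebraMap_apply A R L,
        IsScalarTower.algebraMap_apply A K L, ← Algebra.smul_def]
      exact Submodule.smul_mem _ _ hx
  have h2 := key r hr
  rw [← hx, IsScalarTower.algebraMap_apply A K L, ← Algebra.smul_def] at h2
  have haK : algebraMap A K a ≠ 0 := by
    intro h0
    exact ha ((IsFractionRing.injective A K) (by rw [h0, map_zero]))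
  have h3 := Submodule.smul_mem _ (algebraMap A K a)⁻¹ h2
  rwa [smul_smul, inv_mul_cancel₀ haK, one_smul] at h3

end alg

section prim

variable {A R : Type*} [CommRing A] [IsDomain A] [IsIntegrallyClosed A] [CharZero A]
  [CommRing R] [IsDomain R] [Algebra A R] [Module.Finite A R]

omit [IsDomain A] [IsIntegrallyClosed A] in
/-- clearing denominators -/
theorem exists_clear (K : Type*) [Field K] [Algebra A K] [IsFractionRing A K] (p : K[X]) :
    ∃ (q : A[X]) (b : A), b ≠ 0 ∧ q.map (algebraMap A K) = C (algebraMap A K b) * p := by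
  obtain ⟨b, hb, h⟩ := IsLocalization.integerNormalization_spec (nonZeroDivisors A) p
  refine ⟨IsLocalization.integerNormalization (nonZeroDivisors A) p, b,
    nonZeroDivisors.ne_zero hb, ?_⟩
  rw [h, Algebra.smul_def, IsScalarTower.algebraMap_apply A K K[X]]
  rfl

theorem exists_primitive (hinj : Function.Injective (algebraMap A R)) :
    ∃ (θ : R), (∃ δ : A, δ ≠ 0 ∧ ∃ u v : A[X],
        u * minpoly A θ + v * derivative (minpoly A θ) = C δ) ∧
      ∀ x : R, ∃ δ : A, δ ≠ 0 ∧ ∃ p : A[X], algebraMap A R δ * x = aeval θ p := by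
  have : Algebra.IsIntegral A R := inferInstance
  have : FaithfulSMul A R := (faithfulSMul_iff_algebraMap_injective A R).2 hinj
  let K := FractionRing A
  let L := FractionRing R
  let : Algebra K L := FractionRing.liftAlgebra A L
  have : IsScalarTower A K L := inferInstance
  have : FiniteDimensional K L := finKL (A := A) (R := R) K L
  have : CharZero K := charZero_of_injective_algebraMap (IsFractionRing.injective A K)
  obtain ⟨α, hα⟩ := Field.exists_primitive_element K L
  obtain ⟨θ, a, ha, hθ⟩ := exists_denom (A := A) (R := R) L α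
  have haK : algebraMap A K a ≠ 0 := by
    intro h0
    exact ha ((IsFractionRing.injective A K) (by rw [h0, map_zero]))
  have hθi : IsIntegral A θ := Algebra.IsIntegral.isIntegral θ
  have htop : IntermediateField.adjoin K {algebraMap R L θ} = ⊤ := by
    rw [eq_top_iff, ← hα, IntermediateField.adjoin_simple_le_iff]
    have h1 : algebraMap R L θ ∈ IntermediateField.adjoin K {algebraMap R L θ} :=
      IntermediateField.mem_adjoin_simple_self _ _
    have h2 : α = (algebraMap A K a)⁻¹ • algebraMap R L θ := by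
      rw [← hθ, IsScalarTower.algebraMap_apply A K L, ← Algebra.smul_def, smul_smul,
        inv_mul_cancel₀ haK, one_smul]
    rw [h2]
    exact IntermediateField.smul_mem _ h1
  have hmin := minpoly.isIntegrallyClosed_eq_field_fractions K L hθi
  refine ⟨θ, ?_, ?_⟩
  · have hirr : Irreducible (minpoly K (algebraMap R L θ)) :=
      minpoly.irreducible (Algebra.IsIntegral.isIntegral _)
    have hsep : (minpoly K (algebraMap R L θ)).Separable := hirr.separable
    obtain ⟨u, v, huv⟩ := hsep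
    obtain ⟨U, b, hb, hU⟩ := exists_clear (A := A) K u
    obtain ⟨V, c, hc, hV⟩ := exists_clear (A := A) K v
    refine ⟨b * c, mul_ne_zero hb hc, C c * U, C b * V, ?_⟩
    apply Polynomial.map_injective (algebraMap A K) (IsFractionRing.injective A K)
    rw [Polynomial.map_add, Polynomial.map_mul, Polynomial.map_mul, Polynomial.map_mul,
      Polynomial.map_mul, hU, hV, ← derivative_map, ← hmin]
    simp only [Polynomial.map_C, map_mul, Polynomial.map_mul]
    linear_combination (C (algebraMap A K b) * C (algebraMap A K c)) * huv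
  · intro x
    have hx : algebraMap R L x ∈ IntermediateField.adjoin K {algebraMap R L θ} := by
      rw [htop]; trivial
    rw [← IntermediateField.mem_toSubalgebra,
      IntermediateField.adjoin_simple_toSubalgebra_of_isAlgebraic
        (Algebra.IsAlgebraic.isAlgebraic _), Algebra.adjoin_singleton_eq_range_aeval] at hx
    obtain ⟨p, hp⟩ := hx
    obtain ⟨q, b, hb, hq⟩ := exists_clear (A := A) K p
    refine ⟨b, hb, q, ?_⟩
    apply IsFractionRing.injective R L
    rw [map_mul, ← IsScalarTower.algebraMap_apply A R L, ← aeval_algebraMap_apply]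
    rw [← Polynomial.aeval_map_algebraMap K, hq, map_mul, aeval_C,
      ← IsScalarTower.algebraMap_apply A K L]
    congr 1
    exact hp.symm

end prim

/-- The zero set of an ideal of polynomials. -/
def VV {N : ℕ} (P : Ideal (MvPolynomial (Fin N) ℂ)) : Set (Fin N → ℂ) :=
  {z | ∀ f ∈ P, MvPolynomial.eval z f = 0}

/-- Evaluate the coefficients of `m` at `b` and the variable at `y`. -/
noncomputable def ev2 {n : ℕ} (m : Polynomial (MvPolynomial (Fin n) ℂ)) (b : Fin n → ℂ) (y : ℂ) : ℂ :=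
  (m.map (MvPolynomial.eval b)).eval y

/-- The projection with components `t`. -/
noncomputable def prt {N n : ℕ} (t : Fin n → MvPolynomial (Fin N) ℂ) (z : Fin N → ℂ) : Fin n → ℂ :=
  fun j => MvPolynomial.eval z (t j)

/-- Noether normalization data of a prime ideal: `prt t : VV P → ℂ^n` is finite, `θ` is a
primitive element with minimal polynomial `m`, and outside the zero set of `Δ` the fibres are in
bijection with the roots of `m`. -/
structure NData {N : ℕ} (P : Ideal (MvPolynomial (Fin N) ℂ)) where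
  n : ℕ
  t : Fin n → MvPolynomial (Fin N) ℂ
  θ : MvPolynomial (Fin N) ℂ
  m : Polynomial (MvPolynomial (Fin n) ℂ)
  Δ : MvPolynomial (Fin n) ℂ
  p : Fin N → Polynomial (MvPolynomial (Fin n) ℂ)
  c : Fin N → Polynomial (MvPolynomial (Fin n) ℂ)
  m_monic : m.Monic
  c_monic : ∀ i, (c i).Monic
  Δ_ne : Δ ≠ 0
  sep : ∃ u v : Polynomial (MvPolynomial (Fin n) ℂ), u * m + v * derivative m = C Δ
  m_root : ∀ z ∈ VV P, ev2 m (prt t z) (MvPolynomial.eval z θ) = 0
  p_eq : ∀ z ∈ VV P, ∀ i, MvPolynomial.eval (prt t z) Δ * z i =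
    ev2 (p i) (prt t z) (MvPolynomial.eval z θ)
  c_root : ∀ z ∈ VV P, ∀ i, ev2 (c i) (prt t z) (z i) = 0
  /-- every polynomial function `v` on the variety has a monic equation all of whose roots are
  attained on the fibres -/
  lift : ∀ v : MvPolynomial (Fin N) ℂ, ∃ χ : Polynomial (MvPolynomial (Fin n) ℂ), χ.Monic ∧
    (∀ z ∈ VV P, ev2 χ (prt t z) (MvPolynomial.eval z v) = 0) ∧
    ∀ b y, ev2 χ b y = 0 → ∃ z ∈ VV P, prt t z = b ∧ MvPolynomial.eval z v = y
  m_lift : ∀ b y, ev2 m b y = 0 → ∃ z ∈ VV P, prt t z = b ∧ MvPolynomial.eval z θ = y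
  norm : ∀ H : MvPolynomial (Fin N) ℂ, H ∉ P → ∃ h : MvPolynomial (Fin n) ℂ, h ≠ 0 ∧
    ∀ z ∈ VV P, MvPolynomial.eval z H = 0 → MvPolynomial.eval (prt t z) h = 0


section main

variable {N : ℕ} {P : Ideal (MvPolynomial (Fin N) ℂ)}

theorem aeval_eval {n : ℕ} (z : Fin n → ℂ) (f : MvPolynomial (Fin n) ℂ) :
    MvPolynomial.aeval z f = MvPolynomial.eval z f := by
  rw [MvPolynomial.aeval_def, MvPolynomial.eval, Algebra.algebraMap_self]
  rfl

/-- Evaluation of the coordinate ring at a point of the variety. -/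
noncomputable def evz (z : Fin N → ℂ) (hz : z ∈ VV P) : (MvPolynomial (Fin N) ℂ ⧸ P) →ₐ[ℂ] ℂ :=
  Ideal.Quotient.liftₐ P (MvPolynomial.aeval z) (fun f hf => by
    rw [aeval_eval]; exact hz f hf)

theorem evz_mk (z : Fin N → ℂ) (hz : z ∈ VV P) (f : MvPolynomial (Fin N) ℂ) :
    evz z hz (Ideal.Quotient.mk P f) = MvPolynomial.eval z f := by
  rw [← aeval_eval]
  rfl

theorem evz_g {n : ℕ} (g : MvPolynomial (Fin n) ℂ →ₐ[ℂ] (MvPolynomial (Fin N) ℂ ⧸ P))
    (t : Fin n → MvPolynomial (Fin N) ℂ) (ht : ∀ j, Ideal.Quotient.mk P (t j) = g (MvPolynomial.X j))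
    (z : Fin N → ℂ) (hz : z ∈ VV P) (a : MvPolynomial (Fin n) ℂ) :
    evz z hz (g a) = MvPolynomial.eval (prt t z) a := by
  have h : (evz z hz).comp g = MvPolynomial.aeval (prt t z) := by
    apply MvPolynomial.algHom_ext
    intro j
    rw [AlgHom.comp_apply, ← ht j, evz_mk, MvPolynomial.aeval_X]
    rfl
  have h2 := DFunLike.congr_fun h a
  rw [AlgHom.comp_apply, aeval_eval] at h2
  exact h2

theorem ev2_aeval {n : ℕ} (g : MvPolynomial (Fin n) ℂ →ₐ[ℂ] (MvPolynomial (Fin N) ℂ ⧸ P))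
    (t : Fin n → MvPolynomial (Fin N) ℂ) (ht : ∀ j, Ideal.Quotient.mk P (t j) = g (MvPolynomial.X j))
    (z : Fin N → ℂ) (hz : z ∈ VV P) (m : Polynomial (MvPolynomial (Fin n) ℂ))
    (v : MvPolynomial (Fin N) ℂ) :
    evz z hz (eval₂ g.toRingHom (Ideal.Quotient.mk P v) m) =
      ev2 m (prt t z) (MvPolynomial.eval z v) := by
  rw [ev2, eval_map, ← evz_mk z hz v]
  have h := hom_eval₂ m g.toRingHom (evz z hz).toRingHom (Ideal.Quotient.mk P v)
  have h3 : ((evz z hz).toRingHom).comp g.toRingHom = MvPolynomial.eval (prt t z) := by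
    ext a
    · simp
    · exact evz_g g t ht z hz _
  rw [h3] at h
  exact h

theorem exists_point (Q : Ideal (MvPolynomial (Fin N) ℂ ⧸ P)) (hQ : Q.IsMaximal) :
    ∃ z, ∃ hz : z ∈ VV P, ∀ r, evz z hz r = 0 ↔ r ∈ Q := by
  have h1 : (Q.comap (Ideal.Quotient.mk P)).IsMaximal :=
    Ideal.comap_isMaximal_of_surjective _ Ideal.Quotient.mk_surjective
  obtain ⟨z, hz⟩ := MvPolynomial.isMaximal_iff_eq_vanishingIdeal_singleton.1 h1
  have hm : ∀ f : MvPolynomial (Fin N) ℂ, Ideal.Quotient.mk P f ∈ Q ↔ MvPolynomial.eval z f = 0 := by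
    intro f
    rw [← Ideal.mem_comap, hz, MvPolynomial.mem_vanishingIdeal_singleton_iff, aeval_eval]
  have hzV : z ∈ VV P := by
    intro f hf
    rw [← hm, Ideal.Quotient.eq_zero_iff_mem.2 hf]
    exact Q.zero_mem
  refine ⟨z, hzV, fun r => ?_⟩
  obtain ⟨f, rfl⟩ := Ideal.Quotient.mk_surjective r
  rw [evz_mk, hm]

theorem lift_pt {n : ℕ} (hP : P.IsPrime)
    (g : MvPolynomial (Fin n) ℂ →ₐ[ℂ] (MvPolynomial (Fin N) ℂ ⧸ P))
    (hg : Function.Injective g) (hi : g.toRingHom.IsIntegral)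
    (t : Fin n → MvPolynomial (Fin N) ℂ) (ht : ∀ j, Ideal.Quotient.mk P (t j) = g (MvPolynomial.X j))
    (v : MvPolynomial (Fin N) ℂ) (χ : Polynomial (MvPolynomial (Fin n) ℂ))
    (hχ : χ = @minpoly (MvPolynomial (Fin n) ℂ) (MvPolynomial (Fin N) ℂ ⧸ P) _ _
      g.toRingHom.toAlgebra (Ideal.Quotient.mk P v)) (b : Fin n → ℂ) (y : ℂ)
    (hby : ev2 χ b y = 0) :
    ∃ z ∈ VV P, prt t z = b ∧ MvPolynomial.eval z v = y := by
  have : IsDomain (MvPolynomial (Fin N) ℂ ⧸ P) := Ideal.Quotient.isDomain P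
  let _ : Algebra (MvPolynomial (Fin n) ℂ) (MvPolynomial (Fin N) ℂ ⧸ P) := g.toRingHom.toAlgebra
  have : FaithfulSMul (MvPolynomial (Fin n) ℂ) (MvPolynomial (Fin N) ℂ ⧸ P) :=
    (faithfulSMul_iff_algebraMap_injective _ _).2 hg
  have hint : ∀ r, IsIntegral (MvPolynomial (Fin n) ℂ) (r : MvPolynomial (Fin N) ℂ ⧸ P) := hi
  set vb : MvPolynomial (Fin N) ℂ ⧸ P := Ideal.Quotient.mk P v with hvb
  have hroot : eval₂ (algebraMap (MvPolynomial (Fin n) ℂ) (MvPolynomial (Fin N) ℂ ⧸ P)) vb χ = 0 := by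
    rw [hχ]; exact minpoly.aeval _ _
  let ψ : AdjoinRoot χ →+* (MvPolynomial (Fin N) ℂ ⧸ P) := AdjoinRoot.lift _ vb hroot
  have hψinj : Function.Injective ψ := by
    rw [injective_iff_map_eq_zero]
    intro a ha
    obtain ⟨p, rfl⟩ := AdjoinRoot.mk_surjective a
    have h1 : aeval vb p = 0 := by
      have h2 : ψ (AdjoinRoot.mk χ p) = eval₂ (algebraMap _ _) vb p := AdjoinRoot.lift_mk _ _
      rw [h2] at ha
      exact ha
    have h3 := minpoly.isIntegrallyClosed_dvd (hint vb) h1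
    rw [AdjoinRoot.mk_eq_zero, hχ]
    exact h3
  have hφ0 : eval₂ (MvPolynomial.eval b) y χ = 0 := by rw [← eval_map]; exact hby
  let φ : AdjoinRoot χ →+* ℂ := AdjoinRoot.lift _ y hφ0
  have hφC : ∀ c : ℂ, φ (AdjoinRoot.of χ (MvPolynomial.C c)) = c := by
    intro c
    have : φ (AdjoinRoot.of χ (MvPolynomial.C c)) = MvPolynomial.eval b (MvPolynomial.C c) :=
      AdjoinRoot.lift_of _
    rw [this, MvPolynomial.eval_C]
  have hsurj : Function.Surjective φ := fun c => ⟨_, hφC c⟩
  have hmax : (RingHom.ker φ).IsMaximal := RingHom.ker_isMaximal_of_surjective φ hsurj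
  let _ : Algebra (AdjoinRoot χ) (MvPolynomial (Fin N) ℂ ⧸ P) := ψ.toAlgebra
  have htow : IsScalarTower (MvPolynomial (Fin n) ℂ) (AdjoinRoot χ) (MvPolynomial (Fin N) ℂ ⧸ P) := by
    apply IsScalarTower.of_algebraMap_eq
    intro a
    exact (AdjoinRoot.lift_of (f := χ) hroot).symm
  have hint2 : Algebra.IsIntegral (AdjoinRoot χ) (MvPolynomial (Fin N) ℂ ⧸ P) :=
    ⟨fun r => (hint r).tower_top⟩
  obtain ⟨Q, hQ, hQc⟩ := Ideal.exists_ideal_over_maximal_of_isIntegral
    (S := MvPolynomial (Fin N) ℂ ⧸ P) (RingHom.ker φ) (by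
      intro a ha
      rw [RingHom.mem_ker] at ha
      have h0 : a = 0 := hψinj (by rw [map_zero]; exact ha)
      rw [h0]; exact Ideal.zero_mem _)
  obtain ⟨z, hz, hzQ⟩ := exists_point Q hQ
  have key : ∀ a : AdjoinRoot χ, evz z hz (ψ a) = φ a := by
    intro a
    have h1 : a - AdjoinRoot.of χ (MvPolynomial.C (φ a)) ∈ RingHom.ker φ := by
      rw [RingHom.mem_ker, map_sub, hφC, sub_self]
    rw [← hQc, Ideal.mem_comap] at h1
    have h2 := (hzQ _).2 h1
    have h3 : evz z hz (ψ a) - evz z hz (ψ (AdjoinRoot.of χ (MvPolynomial.C (φ a)))) = 0 := by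
      rw [← map_sub, ← map_sub]; exact h2
    have h4 : ψ (AdjoinRoot.of χ (MvPolynomial.C (φ a))) = g (MvPolynomial.C (φ a)) :=
      AdjoinRoot.lift_of _
    rw [h4, evz_g g t ht z hz, MvPolynomial.eval_C] at h3
    exact sub_eq_zero.1 h3
  refine ⟨z, hz, ?_, ?_⟩
  · funext j
    have h5 : ψ (AdjoinRoot.of χ (MvPolynomial.X j)) = g (MvPolynomial.X j) := AdjoinRoot.lift_of _
    have h6 : φ (AdjoinRoot.of χ (MvPolynomial.X j)) = MvPolynomial.eval b (MvPolynomial.X j) :=
      AdjoinRoot.lift_of _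
    have h7 := key (AdjoinRoot.of χ (MvPolynomial.X j))
    rw [h5, h6, evz_g g t ht z hz, MvPolynomial.eval_X, MvPolynomial.eval_X] at h7
    exact h7
  · have h5 : ψ (AdjoinRoot.root χ) = vb := AdjoinRoot.lift_root _
    have h6 : φ (AdjoinRoot.root χ) = y := AdjoinRoot.lift_root _
    have h7 := key (AdjoinRoot.root χ)
    rw [h5, h6, hvb, evz_mk] at h7
    exact h7

end main

theorem exists_nData {N : ℕ} (P : Ideal (MvPolynomial (Fin N) ℂ)) (hP : P.IsPrime) :
    Nonempty (NData P) := by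
  classical
  have hdom : IsDomain (MvPolynomial (Fin N) ℂ ⧸ P) := Ideal.Quotient.isDomain P
  have hnt : Nontrivial (MvPolynomial (Fin N) ℂ ⧸ P) := hdom.toNontrivial
  obtain ⟨n, g, hg, hfin⟩ := exists_finite_inj_algHom_of_fg ℂ (MvPolynomial (Fin N) ℂ ⧸ P)
  have hi : g.toRingHom.IsIntegral := hfin.to_isIntegral
  let alg : Algebra (MvPolynomial (Fin n) ℂ) (MvPolynomial (Fin N) ℂ ⧸ P) := g.toRingHom.toAlgebra
  have hmf : @Module.Finite (MvPolynomial (Fin n) ℂ) (MvPolynomial (Fin N) ℂ ⧸ P) _ _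
    alg.toModule := hfin
  have hint : ∀ r, IsIntegral (MvPolynomial (Fin n) ℂ) (r : MvPolynomial (Fin N) ℂ ⧸ P) := hi
  choose t ht using fun j => Ideal.Quotient.mk_surjective (g (MvPolynomial.X j))
  obtain ⟨θb, ⟨δ0, hδ0, u, v, huv⟩, hprim⟩ := @exists_primitive (MvPolynomial (Fin n) ℂ)
    (MvPolynomial (Fin N) ℂ ⧸ P) _ _ _ _ _ _ alg hmf hg
  obtain ⟨θ, hθ⟩ := Ideal.Quotient.mk_surjective θb
  choose δ hδ p hp using fun i : Fin N => hprim (Ideal.Quotient.mk P (MvPolynomial.X i))
  have hminv : ∀ (f : MvPolynomial (Fin N) ℂ) (z : Fin N → ℂ), z ∈ VV P →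
      ev2 (minpoly (MvPolynomial (Fin n) ℂ) (Ideal.Quotient.mk P f)) (prt t z)
        (MvPolynomial.eval z f) = 0 := by
    intro f z hz
    rw [← ev2_aeval g t ht z hz]
    have h0 : eval₂ g.toRingHom (Ideal.Quotient.mk P f)
      (minpoly (MvPolynomial (Fin n) ℂ) (Ideal.Quotient.mk P f)) = 0 := minpoly.aeval _ _
    rw [h0, map_zero]
  refine ⟨{
    n := n
    t := t
    θ := θ
    m := minpoly (MvPolynomial (Fin n) ℂ) θb
    Δ := δ0 * ∏ i, δ i
    p := fun i => C (δ0 * ∏ j ∈ Finset.univ.erase i, δ j) * p i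
    c := fun i => minpoly (MvPolynomial (Fin n) ℂ) (Ideal.Quotient.mk P (MvPolynomial.X i))
    m_monic := minpoly.monic (hint _)
    c_monic := fun i => minpoly.monic (hint _)
    Δ_ne := mul_ne_zero hδ0 (Finset.prod_ne_zero_iff.2 fun i _ => hδ i)
    sep := ⟨C (∏ i, δ i) * u, C (∏ i, δ i) * v, by
      rw [C_mul]; linear_combination C (∏ i, δ i) * huv⟩
    m_root := ?_
    p_eq := ?_
    c_root := ?_
    lift := ?_
    m_lift := ?_
    norm := ?_ }⟩
  · intro z hz
    rw [← hθ]
    exact hminv θ z hz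
  · intro z hz i
    have h1 : eval₂ g.toRingHom (Ideal.Quotient.mk P θ) (p i) =
        g (δ i) * Ideal.Quotient.mk P (MvPolynomial.X i) := by
      rw [hθ]; exact (hp i).symm
    have h2 := ev2_aeval g t ht z hz (p i) θ
    rw [h1, map_mul, evz_g g t ht z hz, evz_mk, MvPolynomial.eval_X] at h2
    have h3 : ev2 (C (δ0 * ∏ j ∈ Finset.univ.erase i, δ j) * p i) (prt t z)
        (MvPolynomial.eval z θ) =
        MvPolynomial.eval (prt t z) (δ0 * ∏ j ∈ Finset.univ.erase i, δ j) *
          ev2 (p i) (prt t z) (MvPolynomial.eval z θ) := by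
      simp only [ev2, Polynomial.map_mul, Polynomial.map_C, eval_mul, eval_C]
    rw [h3, ← h2, ← Finset.mul_prod_erase Finset.univ δ (Finset.mem_univ i)]
    simp only [map_mul]
    ring
  · intro z hz i
    have h := hminv (MvPolynomial.X i) z hz
    rwa [MvPolynomial.eval_X] at h
  · intro f
    refine ⟨minpoly (MvPolynomial (Fin n) ℂ) (Ideal.Quotient.mk P f), minpoly.monic (hint _),
      fun z hz => hminv f z hz, fun b y hby => ?_⟩
    exact lift_pt hP g hg hi t ht f _ rfl b y hby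
  · intro b y hby
    refine lift_pt hP g hg hi t ht θ (minpoly (MvPolynomial (Fin n) ℂ) θb) ?_ b y hby
    rw [hθ]
  · intro H hH
    have hHne : Ideal.Quotient.mk P H ≠ 0 := fun h => hH (Ideal.Quotient.eq_zero_iff_mem.1 h)
    refine ⟨(minpoly (MvPolynomial (Fin n) ℂ) (Ideal.Quotient.mk P H)).coeff 0,
      coeff_zero_ne (hint _) hHne, fun z hz hz0 => ?_⟩
    have h := hminv H z hz
    rw [hz0, ev2, ← coeff_zero_eq_eval_zero, coeff_map] at h
    exact h

end Vale.Agent.P271.NN
end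

section

/-! Manifold points and density from Noether normalization data (TASK Z2). -/

open Filter Metric Set Topology

namespace Vale.Agent.P271.NN

namespace NPar

open Polynomial

/-- bound for the roots of a monic polynomial. -/
theorem root_bound {p : ℂ[X]} (hp : p.Monic) {x : ℂ} (hx : p.eval x = 0) :
    ‖x‖ ≤ 1 + ∑ j ∈ Finset.range p.natDegree, ‖p.coeff j‖ := by
  have hS : 0 ≤ ∑ j ∈ Finset.range p.natDegree, ‖p.coeff j‖ :=
    Finset.sum_nonneg fun _ _ => norm_nonneg _
  by_cases h1 : ‖x‖ ≤ 1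
  · linarith
  · push Not at h1
    rw [Polynomial.eval_eq_sum_range, Finset.sum_range_succ, hp.coeff_natDegree, one_mul] at hx
    rcases hn : p.natDegree with _ | n
    · exfalso
      rw [hn] at hx
      simp at hx
    · rw [hn] at hx hS
      have h2 : ‖x ^ (n + 1)‖ ≤ (∑ j ∈ Finset.range (n + 1), ‖p.coeff j‖) * ‖x‖ ^ n := by
        rw [eq_neg_of_add_eq_zero_right hx, norm_neg, Finset.sum_mul]
        refine (norm_sum_le _ _).trans (Finset.sum_le_sum fun j hj => ?_)
        rw [norm_mul, norm_pow]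
        have : ‖x‖ ^ j ≤ ‖x‖ ^ n :=
          pow_le_pow_right₀ h1.le (Nat.lt_succ_iff.1 (Finset.mem_range.1 hj))
        gcongr
      rw [norm_pow, pow_succ'] at h2
      have h3 : 0 < ‖x‖ ^ n := by positivity
      have h5 := le_of_mul_le_mul_right h2 h3
      linarith

/-- a monic polynomial has a small root if its constant coefficient is small. -/
theorem small_root {p : ℂ[X]} (hp : p.Monic) (hd : p.natDegree ≠ 0) :
    ∃ y, p.eval y = 0 ∧ ‖y‖ ^ p.natDegree ≤ ‖p.coeff 0‖ := by
  have hs := IsAlgClosed.splits p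
  have hc := hs.coeff_zero_eq_prod_roots_of_monic hp
  have hcard : p.roots.card = p.natDegree := hs.natDegree_eq_card_roots.symm
  by_contra hcon
  push Not at hcon
  have h1 : ∀ s : Multiset ℂ, s ≠ 0 → (∀ y ∈ s, ‖p.coeff 0‖ < ‖y‖ ^ p.natDegree) →
      ‖p.coeff 0‖ ^ s.card < ‖s.prod‖ ^ p.natDegree := by
    intro s
    induction s using Multiset.induction_on with
    | empty => intro h; exact absurd rfl h
    | cons a s ih =>
      intro _ h
      rw [Multiset.card_cons, Multiset.prod_cons, norm_mul, mul_pow, pow_succ']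
      have h2 := h a (Multiset.mem_cons_self a s)
      by_cases hs0 : s = 0
      · subst hs0
        simpa using h2
      · have h3 := ih hs0 fun y hy => h y (Multiset.mem_cons_of_mem hy)
        exact mul_lt_mul'' h2 h3 (norm_nonneg _) (by positivity)
  have h2 : p.roots ≠ 0 := by
    intro h0
    rw [h0, Multiset.card_zero] at hcard
    exact hd hcard.symm
  have h3 := h1 p.roots h2 fun y hy => hcon y (Polynomial.isRoot_of_mem_roots hy)
  rw [hcard] at h3
  have h4 : ‖p.roots.prod‖ = ‖p.coeff 0‖ := by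
    rw [hc, norm_mul, norm_pow, norm_neg, norm_one, one_pow, one_mul]
  rw [h4] at h3
  exact lt_irrefl _ h3

variable {n : ℕ}

theorem ev2_eq (m : Polynomial (MvPolynomial (Fin n) ℂ)) (b : Fin n → ℂ) (y : ℂ) :
    ev2 m b y = ∑ j ∈ Finset.range (m.natDegree + 1), MvPolynomial.eval b (m.coeff j) * y ^ j := by
  unfold ev2
  rw [Polynomial.eval_eq_sum_range' (Nat.lt_succ_of_le (Polynomial.natDegree_map_le))]
  simp only [Polynomial.coeff_map]

theorem root_bound2 {m : Polynomial (MvPolynomial (Fin n) ℂ)} (hm : m.Monic) {b : Fin n → ℂ}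
    {y : ℂ} (hy : ev2 m b y = 0) :
    ‖y‖ ≤ 1 + ∑ j ∈ Finset.range m.natDegree, ‖MvPolynomial.eval b (m.coeff j)‖ := by
  have h := root_bound (hm.map (MvPolynomial.eval b)) hy
  rw [hm.natDegree_map] at h
  simpa only [Polynomial.coeff_map] using h

theorem differentiable_eval (q : MvPolynomial (Fin n) ℂ) :
    Differentiable ℂ fun b : Fin n → ℂ => MvPolynomial.eval b q := fun b =>
  ((AnalyticOnNhd.eval_mvPolynomial q) b (mem_univ b)).differentiableAt

theorem continuous_prt {N : ℕ} (t : Fin n → MvPolynomial (Fin N) ℂ) : Continuous (prt t) :=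
  continuous_pi fun j => MvPolynomial.continuous_eval (t j)

theorem differentiable_prt {N : ℕ} (t : Fin n → MvPolynomial (Fin N) ℂ) :
    Differentiable ℂ (prt t) :=
  differentiable_pi.2 fun j => differentiable_eval (t j)

/-- the nonvanishing set of a polynomial is dense. -/
theorem dense_ne {k : MvPolynomial (Fin n) ℂ} (hk : k ≠ 0) (b0 : Fin n → ℂ) {δ : ℝ} (hδ : 0 < δ) :
    ∃ b, dist b b0 < δ ∧ MvPolynomial.eval b k ≠ 0 := by
  by_contra hcon
  push Not at hcon
  apply hk
  refine MvPolynomial.funext_set (fun i => ball (b0 i) δ) (fun i => ?_) fun b hb => ?_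
  · exact infinite_of_mem_nhds (b0 i) (ball_mem_nhds _ hδ)
  · rw [map_zero]
    refine hcon b ?_
    rw [dist_pi_lt_iff hδ]
    exact fun i => hb i (mem_univ i)

/-- a polynomial vanishing at `z0` and equal to `1` at finitely many other points. -/
theorem exists_sep {N : ℕ} (z0 : Fin N → ℂ) {F : Set (Fin N → ℂ)} (hF : F.Finite) :
    ∃ v : MvPolynomial (Fin N) ℂ, MvPolynomial.eval z0 v = 0 ∧
      ∀ z ∈ F, z ≠ z0 → MvPolynomial.eval z v = 1 := by
  classical
  suffices h : ∃ w : MvPolynomial (Fin N) ℂ, MvPolynomial.eval z0 w = 1 ∧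
      ∀ z ∈ F, z ≠ z0 → MvPolynomial.eval z w = 0 by
    obtain ⟨w, hw1, hw2⟩ := h
    refine ⟨1 - w, ?_, fun z hz hz0 => ?_⟩
    · rw [map_sub, map_one, hw1, sub_self]
    · rw [map_sub, map_one, hw2 z hz hz0, sub_zero]
  induction F, hF using Set.Finite.induction_on with
  | empty => exact ⟨1, by simp, fun z hz => absurd hz (notMem_empty z)⟩
  | @insert a F _ _ ih =>
    obtain ⟨w, hw1, hw2⟩ := ih
    by_cases ha : a = z0
    · refine ⟨w, hw1, fun z hz hz0 => ?_⟩
      rcases mem_insert_iff.1 hz with h | h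
      · exact absurd (h.trans ha) hz0
      · exact hw2 z h hz0
    · obtain ⟨i, hi⟩ := Function.ne_iff.1 ha
      have hi' : z0 i - a i ≠ 0 := sub_ne_zero.2 (Ne.symm hi)
      refine ⟨MvPolynomial.C (z0 i - a i)⁻¹ * (MvPolynomial.X i - MvPolynomial.C (a i)) * w, ?_,
        fun z hz hz0 => ?_⟩
      · simp only [map_mul, map_sub, MvPolynomial.eval_C, MvPolynomial.eval_X, hw1, mul_one]
        exact inv_mul_cancel₀ hi'
      · simp only [map_mul, map_sub, MvPolynomial.eval_C, MvPolynomial.eval_X]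
        rcases mem_insert_iff.1 hz with h | h
        · rw [h, sub_self, mul_zero, zero_mul]
        · rw [hw2 z h hz0, mul_zero]

end NPar

open NPar

/-- The projection is proper. -/
theorem NData.bounded {N : ℕ} {P : Ideal (MvPolynomial (Fin N) ℂ)} (d : NData P) (R : ℝ) :
    ∃ C : ℝ, ∀ z ∈ VV P, ‖prt d.t z‖ ≤ R → ‖z‖ ≤ C := by
  set φ : (Fin d.n → ℂ) → ℝ := fun b =>
    ∑ i, (1 + ∑ j ∈ Finset.range (d.c i).natDegree, ‖MvPolynomial.eval b ((d.c i).coeff j)‖)
    with hφ
  have hφc : Continuous φ := by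
    refine continuous_finsetSum _ fun i _ => continuous_const.add ?_
    refine continuous_finsetSum _ fun j _ => ?_
    exact (MvPolynomial.continuous_eval _).norm
  obtain ⟨C, hC⟩ := (isCompact_closedBall (0 : Fin d.n → ℂ) R).exists_bound_of_continuousOn
    hφc.continuousOn
  refine ⟨C, fun z hz hzR => ?_⟩
  have h1 := hC (prt d.t z) (mem_closedBall_zero_iff.2 hzR)
  refine le_trans ?_ ((le_abs_self _).trans h1)
  have hnn : ∀ i, 0 ≤ 1 + ∑ j ∈ Finset.range (d.c i).natDegree,
      ‖MvPolynomial.eval (prt d.t z) ((d.c i).coeff j)‖ := fun i =>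
    add_nonneg zero_le_one (Finset.sum_nonneg fun _ _ => norm_nonneg _)
  rw [pi_norm_le_iff_of_nonneg (Finset.sum_nonneg fun i _ => hnn i)]
  intro i
  refine (root_bound2 (d.c_monic i) (d.c_root z hz i)).trans ?_
  exact Finset.single_le_sum (f := fun i => 1 + ∑ j ∈ Finset.range (d.c i).natDegree,
      ‖MvPolynomial.eval (prt d.t z) ((d.c i).coeff j)‖) (fun i _ => hnn i) (Finset.mem_univ i)

/-- The fibres are finite. -/
theorem NData.finite_fibre {N : ℕ} {P : Ideal (MvPolynomial (Fin N) ℂ)} (d : NData P)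
    (b : Fin d.n → ℂ) : {z | z ∈ VV P ∧ prt d.t z = b}.Finite := by
  have h1 : ∀ i, {y : ℂ | ((d.c i).map (MvPolynomial.eval b)).IsRoot y}.Finite := fun i =>
    Polynomial.finite_setOfPred_isRoot ((d.c_monic i).map (MvPolynomial.eval b)).ne_zero
  refine (Set.Finite.pi fun i => h1 i).subset ?_
  rintro z ⟨hz, rfl⟩ i _
  exact d.c_root z hz i

theorem NPar.sepFam {N : ℕ} {P : Ideal (MvPolynomial (Fin N) ℂ)} (d : NData P) :
    SepFam {b : Fin d.n → ℂ | MvPolynomial.eval b d.Δ ≠ 0} d.m.natDegree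
      (fun b => d.m.map (MvPolynomial.eval b)) where
  an j := by
    simp only [Polynomial.coeff_map]
    exact (AnalyticOnNhd.eval_mvPolynomial _).mono (subset_univ _)
  deg b _ := Polynomial.natDegree_map_le
  lc b _ := by
    rw [Polynomial.coeff_map, d.m_monic.coeff_natDegree, map_one]
    exact one_ne_zero
  sep b hb x hx hx' := by
    obtain ⟨u, v, huv⟩ := d.sep
    apply hb
    have h1 := congrArg (fun q => (q.map (MvPolynomial.eval b)).eval x) huv
    simp only [Polynomial.map_add, Polynomial.map_mul, Polynomial.eval_add, Polynomial.eval_mul,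
      Polynomial.map_C, Polynomial.eval_C] at h1
    rw [← h1, hx]
    rw [Polynomial.derivative_map] at hx'
    rw [hx', mul_zero, mul_zero, add_zero]

/-- Points outside the zero set of `Δ` are manifold points; the parametrization can be chosen as
a local section of the projection. -/
theorem NData.exists_section {N : ℕ} {P : Ideal (MvPolynomial (Fin N) ℂ)} (d : NData P)
    {z0 : Fin N → ℂ} (hz0 : z0 ∈ VV P) (hΔ : MvPolynomial.eval (prt d.t z0) d.Δ ≠ 0) :
    ∃ r > 0, ∃ (W : Set (Fin N → ℂ)) (σ : (Fin d.n → ℂ) → (Fin N → ℂ)), IsOpen W ∧ z0 ∈ W ∧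
      DifferentiableOn ℂ σ (ball (prt d.t z0) r) ∧ σ (prt d.t z0) = z0 ∧
      (∀ b ∈ ball (prt d.t z0) r, σ b ∈ VV P ∩ W ∧ prt d.t (σ b) = b) ∧
      ∀ z ∈ VV P ∩ W, prt d.t z ∈ ball (prt d.t z0) r ∧ σ (prt d.t z) = z := by
  set b0 := prt d.t z0 with hb0
  set y0 := MvPolynomial.eval z0 d.θ with hy0
  have hopen : IsOpen {b : Fin d.n → ℂ | MvPolynomial.eval b d.Δ ≠ 0} :=
    isOpen_ne_fun (MvPolynomial.continuous_eval _) continuous_const
  have hroot0 : (d.m.map (MvPolynomial.eval b0)).eval y0 = 0 := d.m_root z0 hz0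
  obtain ⟨φ, hφs, hφ, hφan⟩ := (sepFam d).localEquiv hopen (w := b0) hΔ hroot0
  have hφt : (b0, (0 : ℂ)) ∈ φ.target := by
    have h1 := φ.map_source hφs
    rw [hφ] at h1
    simp only [hroot0] at h1
    exact h1
  have hφ0 : φ.symm (b0, 0) = (b0, y0) := by
    have h1 := φ.left_inv hφs
    rw [hφ] at h1
    simp only [hroot0] at h1
    exact h1
  -- a product neighbourhood inside the source
  obtain ⟨ε, hε, hεs⟩ := Metric.isOpen_iff.1 φ.open_source _ hφs
  rw [← ball_prod_same] at hεs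
  -- good points near `b0`
  have hc1 : ContinuousAt (fun b : Fin d.n → ℂ => (b, (0 : ℂ))) b0 :=
    continuousAt_id.prodMk continuousAt_const
  have ev1 : ∀ᶠ b in 𝓝 b0, (b, (0 : ℂ)) ∈ φ.target :=
    hc1.eventually_mem (φ.open_target.mem_nhds hφt)
  have ev2' : ∀ᶠ b in 𝓝 b0, AnalyticAt ℂ φ.symm (b, 0) :=
    hc1.eventually hφan.eventually_analyticAt
  have ev3 : ∀ᶠ b in 𝓝 b0, (φ.symm (b, 0)).2 ∈ ball y0 ε := by
    have hc2 : ContinuousAt (fun b : Fin d.n → ℂ => (φ.symm (b, 0)).2) b0 := by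
      have h1 : ContinuousAt φ.symm (b0, 0) := φ.continuousAt_symm hφt
      exact continuous_snd.continuousAt.comp (ContinuousAt.comp (g := φ.symm) h1 hc1)
    refine hc2.eventually_mem ?_
    rw [hφ0]
    exact ball_mem_nhds _ hε
  have ev4 : ∀ᶠ b in 𝓝 b0, b ∈ ball b0 ε := ball_mem_nhds _ hε
  have ev5 : ∀ᶠ b in 𝓝 b0, MvPolynomial.eval b d.Δ ≠ 0 := hopen.mem_nhds hΔ
  obtain ⟨r, hr, hgood⟩ := Metric.eventually_nhds_iff_ball.1
    (ev1.and (ev2'.and (ev3.and (ev4.and ev5))))
  set y : (Fin d.n → ℂ) → ℂ := fun b => (φ.symm (b, 0)).2 with hy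
  have hinv : ∀ b ∈ ball b0 r, (φ.symm (b, 0)).1 = b ∧ ev2 d.m b (y b) = 0 := by
    intro b hb
    have h1 := φ.right_inv (hgood b hb).1
    rw [hφ] at h1
    have h2 := congrArg Prod.fst h1
    have h3 := congrArg Prod.snd h1
    simp only at h2 h3
    rw [h2] at h3
    exact ⟨h2, h3⟩
  set σ : (Fin d.n → ℂ) → (Fin N → ℂ) := fun b i =>
    ev2 (d.p i) b (y b) / MvPolynomial.eval b d.Δ with hσ
  set W : Set (Fin N → ℂ) := {z | prt d.t z ∈ ball b0 r ∧ MvPolynomial.eval z d.θ ∈ ball y0 ε}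
    with hW
  have hWo : IsOpen W :=
    (isOpen_ball.preimage (continuous_prt d.t)).inter
      (isOpen_ball.preimage (MvPolynomial.continuous_eval d.θ))
  have hz0W : z0 ∈ W := ⟨mem_ball_self hr, mem_ball_self hε⟩
  -- sections
  have hback : ∀ z ∈ VV P ∩ W, prt d.t z ∈ ball b0 r ∧ σ (prt d.t z) = z := by
    rintro z ⟨hz, hzW⟩
    refine ⟨hzW.1, ?_⟩
    have hg := hgood _ hzW.1
    have hθ : MvPolynomial.eval z d.θ = y (prt d.t z) := by
      have h1 : (prt d.t z, MvPolynomial.eval z d.θ) ∈ φ.source :=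
        hεs ⟨hg.2.2.2.1, hzW.2⟩
      have h2 := φ.left_inv h1
      rw [hφ] at h2
      have h3 : (d.m.map (MvPolynomial.eval (prt d.t z))).eval (MvPolynomial.eval z d.θ) = 0 :=
        d.m_root z hz
      simp only [h3] at h2
      exact (congrArg Prod.snd h2).symm
    funext i
    have h4 := d.p_eq z hz i
    rw [hθ] at h4
    change ev2 (d.p i) (prt d.t z) (y (prt d.t z)) / MvPolynomial.eval (prt d.t z) d.Δ = z i
    rw [← h4, mul_div_cancel_left₀ _ hg.2.2.2.2]
  have hforw : ∀ b ∈ ball b0 r, σ b ∈ VV P ∩ W ∧ prt d.t (σ b) = b := by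
    intro b hb
    have hg := hgood b hb
    obtain ⟨z, hz, hzb, hzθ⟩ := d.m_lift b (y b) (hinv b hb).2
    have hzW : z ∈ W := by
      refine ⟨?_, ?_⟩
      · rw [hzb]; exact hb
      · rw [hzθ]; exact hg.2.2.1
    have h1 := (hback z ⟨hz, hzW⟩).2
    rw [hzb] at h1
    rw [h1]
    exact ⟨⟨hz, hzW⟩, hzb⟩
  refine ⟨r, hr, W, σ, hWo, hz0W, ?_, (hback z0 ⟨hz0, hz0W⟩).2, hforw, hback⟩
  -- differentiability
  have hyd : DifferentiableOn ℂ y (ball b0 r) := by
    intro b hb
    have h1 : DifferentiableAt ℂ φ.symm (b, 0) := (hgood b hb).2.1.differentiableAt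
    have h2 : DifferentiableAt ℂ (fun b : Fin d.n → ℂ => (b, (0 : ℂ))) b :=
      differentiableAt_id.prodMk (differentiableAt_const _)
    exact ((DifferentiableAt.comp (g := φ.symm) b h1 h2).snd).differentiableWithinAt
  rw [differentiableOn_pi]
  intro i
  simp only [hσ, div_eq_mul_inv]
  refine DifferentiableOn.mul ?_ (DifferentiableOn.inv
    (differentiable_eval d.Δ).differentiableOn fun b hb => (hgood b hb).2.2.2.2)
  simp only [ev2_eq]
  refine DifferentiableOn.fun_sum fun j _ => ?_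
  exact (differentiable_eval _).differentiableOn.mul (hyd.pow j)

/-- Nonvanishing sets of polynomials are dense in irreducible varieties. -/
theorem NData.dense {N : ℕ} {P : Ideal (MvPolynomial (Fin N) ℂ)} (d : NData P)
    {z0 : Fin N → ℂ} (hz0 : z0 ∈ VV P) {H : MvPolynomial (Fin N) ℂ} (hH : H ∉ P) {ε : ℝ}
    (hε : 0 < ε) : ∃ z ∈ VV P, dist z z0 < ε ∧ MvPolynomial.eval z H ≠ 0 ∧
      MvPolynomial.eval (prt d.t z) d.Δ ≠ 0 := by
  obtain ⟨h, hh, hHh⟩ := d.norm H hH
  set b0 := prt d.t z0 with hb0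
  obtain ⟨v, hv0, hv1⟩ := exists_sep z0 (d.finite_fibre b0)
  obtain ⟨χ, hχm, hχr, hχl⟩ := d.lift v
  have hclosed : IsClosed (VV P) := by
    have : VV P = ⋂ f ∈ P, {z | MvPolynomial.eval z f = 0} := by
      ext z
      simp [VV]
    rw [this]
    exact isClosed_biInter fun f _ => isClosed_eq (MvPolynomial.continuous_eval f) continuous_const
  -- a compact set of points far away from `z0`
  obtain ⟨C, hC⟩ := d.bounded (‖b0‖ + 1)
  set K : Set (Fin N → ℂ) := (closedBall 0 C ∩ VV P) ∩ (ball z0 ε)ᶜ with hK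
  have hKc : IsCompact K :=
    ((isCompact_closedBall (0 : Fin N → ℂ) C).inter_right hclosed).inter_right
      isOpen_ball.isClosed_compl
  set F : (Fin N → ℂ) → ℝ := fun z => ‖prt d.t z - b0‖ + ‖MvPolynomial.eval z v‖ with hF
  have hFc : Continuous F :=
    ((continuous_prt d.t).sub continuous_const).norm.add (MvPolynomial.continuous_eval v).norm
  have hFpos : ∀ z ∈ K, 0 < F z := by
    intro z hz
    have h0 : 0 ≤ F z := add_nonneg (norm_nonneg _) (norm_nonneg _)
    refine lt_of_le_of_ne h0 fun h1 => ?_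
    have h2 : ‖prt d.t z - b0‖ = 0 ∧ ‖MvPolynomial.eval z v‖ = 0 :=
      (add_eq_zero_iff_of_nonneg (norm_nonneg _) (norm_nonneg _)).1 h1.symm
    have h3 : prt d.t z = b0 := sub_eq_zero.1 (norm_eq_zero.1 h2.1)
    have h4 : MvPolynomial.eval z v = 0 := norm_eq_zero.1 h2.2
    by_cases h5 : z = z0
    · apply hz.2
      rw [h5]
      exact mem_ball_self hε
    · have h6 := hv1 z ⟨hz.1.2, h3⟩ h5
      rw [h4] at h6
      exact zero_ne_one h6
  obtain ⟨δ, hδ, hδF⟩ : ∃ δ > 0, ∀ z ∈ K, δ ≤ F z := by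
    rcases K.eq_empty_or_nonempty with h1 | h1
    · exact ⟨1, one_pos, fun z hz => by rw [h1] at hz; exact absurd hz (notMem_empty z)⟩
    · obtain ⟨x, hx, hmin⟩ := hKc.exists_isMinOn h1 hFc.continuousOn
      exact ⟨F x, hFpos x hx, fun z hz => hmin hz⟩
  -- the degree of `χ` is positive
  have hdeg : χ.natDegree ≠ 0 := by
    intro h0
    have h1 : χ = 1 := hχm.natDegree_eq_zero.1 h0
    have h2 := hχr z0 hz0
    rw [h1] at h2
    simp [ev2] at h2
  -- the constant coefficient tends to zero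
  have hc0 : MvPolynomial.eval b0 (χ.coeff 0) = 0 := by
    have h2 := hχr z0 hz0
    rw [hv0, ev2_eq, Finset.sum_eq_single 0] at h2
    · simpa using h2
    · intro j _ hj
      rw [zero_pow hj, mul_zero]
    · intro h
      exact absurd (Finset.mem_range.2 (Nat.succ_pos _)) h
  have hδ2 : 0 < min (δ / 2) 1 := lt_min (by linarith) one_pos
  have hev : ∀ᶠ b in 𝓝 b0, ‖MvPolynomial.eval b (χ.coeff 0)‖ < (δ / 2) ^ χ.natDegree := by
    have h1 : ContinuousAt (fun b => ‖MvPolynomial.eval b (χ.coeff 0)‖) b0 :=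
      (MvPolynomial.continuous_eval _).norm.continuousAt
    refine h1.eventually_lt_const ?_
    simp only [hc0, norm_zero]
    positivity
  obtain ⟨ρ, hρ, hρb⟩ := Metric.eventually_nhds_iff.1 hev
  obtain ⟨b, hb, hkb⟩ := dense_ne (mul_ne_zero hh d.Δ_ne) b0 (lt_min hρ hδ2)
  rw [map_mul] at hkb
  have hb1 : dist b b0 < ρ := hb.trans_le (min_le_left _ _)
  have hb2 : dist b b0 < δ / 2 := hb.trans_le ((min_le_right _ _).trans (min_le_left _ _))
  have hb3 : dist b b0 < 1 := hb.trans_le ((min_le_right _ _).trans (min_le_right _ _))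
  -- a small root
  obtain ⟨y, hy0, hy1⟩ := small_root (hχm.map (MvPolynomial.eval b))
    (by rw [hχm.natDegree_map]; exact hdeg)
  rw [hχm.natDegree_map, Polynomial.coeff_map] at hy1
  have hy2 : ‖y‖ < δ / 2 := by
    have h1 : ‖y‖ ^ χ.natDegree < (δ / 2) ^ χ.natDegree := hy1.trans_lt (hρb hb1)
    exact lt_of_pow_lt_pow_left₀ _ (by positivity) h1
  obtain ⟨z, hz, hzb, hzv⟩ := hχl b y hy0
  refine ⟨z, hz, ?_, ?_, ?_⟩
  · by_contra hcon
    have hzK : z ∈ K := by
      refine ⟨⟨?_, hz⟩, fun h1 => hcon h1⟩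
      rw [mem_closedBall_zero_iff]
      refine hC z hz ?_
      rw [hzb]
      have h1 : ‖b‖ ≤ ‖b0‖ + dist b b0 := by
        rw [dist_eq_norm]
        calc ‖b‖ = ‖b0 + (b - b0)‖ := by rw [add_sub_cancel]
          _ ≤ _ := norm_add_le _ _
      linarith only [h1, hb3]
    have h1 := hδF z hzK
    have h2 : F z < δ := by
      change ‖prt d.t z - b0‖ + ‖MvPolynomial.eval z v‖ < δ
      rw [hzb, hzv, ← dist_eq_norm]
      linarith
    linarith
  · intro h1
    have h2 := hHh z hz h1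
    rw [hzb] at h2
    rw [h2, zero_mul] at hkb
    exact hkb rfl
  · rw [hzb]
    exact right_ne_zero_of_mul hkb

end Vale.Agent.P271.NN
end
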